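import Crest.Agent.R39.B1a
import Crest.Agent.R39.FC

set_option autoImplicit false
set_option linter.unusedSectionVars false
open Finset

namespace Crest.Agent.R39
namespace Mp
variable {E B W F : Type} [Fintype E] [DecidableEq E] [Fintype B] [DecidableEq B]
  [Fintype W] [DecidableEq W] [Fintype F] [DecidableEq F]

/-- the count: `RL` on both sides (`U = r (YB \\ C)`, `U' = RF b0 ∪ r (YBᶜ \\ C)`), `FC`, `cutcount` -/
theorem B1d28 {G : Mp E B W F} (h : G.Good) (b0 : B) (r s : B' b0 ≃ G.F' b0)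
    (hJ : ∀ b : B' b0, G.J b.1 (r b).1 (s b).1 ≠ 0) (b1 : B' b0) (YB : Finset B) (YW : Finset W)
    (hb0 : b0 ∉ YB)
    (hcut : ∀ e, G.xC b0 r s (orb (s.trans r.symm) b1) e = 0 ↔ (G.bl e ∈ YB ↔ G.wh e ∈ YW))
    (hc1 : G.ConnOn YB YW (G.ins YB YW)) (hc2 : G.ConnOn YBᶜ YWᶜ (G.ins YBᶜ YWᶜ)) :
    YW.card = YB.card + 1 := by
  classical
  obtain ⟨ε, hε1, hε2, hε3, hε4⟩ := B1v h b0 r s hJ (orb (s.trans r.symm) b1)
  set C := orb (s.trans r.symm) b1 with hC
  have hb1 : b1 ∈ C := by simp [hC, orb, Equiv.Perm.SameCycle.refl]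
  have hκ : ∀ b ∈ C, r.symm (s b) ∈ C := by
    intro b hb
    simp only [hC, orb, mem_filter, mem_univ, true_and] at hb ⊢
    exact (Equiv.Perm.sameCycle_apply_right (f := s.trans r.symm)).2 hb
  have hεr : ∀ b, G.L (ε b) = (r b).1 ∨ G.R (ε b) = (r b).1 := fun b =>
    (hε2 b).elim (fun h => Or.inl h.1) (fun h => Or.inr h.1)
  -- faces touched by a cut edge
  have htouch : ∀ e w, (G.L e = w ∨ G.R e = w) → G.xC b0 r s C e ≠ 0 → ∃ b ∈ C, w = (r b).1 := by
    intro e w hw hx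
    obtain ⟨b, hb, rfl⟩ := hε4 e hx
    have h2 : (s b).1 = (r (r.symm (s b))).1 := by simp
    rcases hε2 b with ⟨a1, a2, -⟩ | ⟨a1, a2, -⟩ <;> rcases hw with hw | hw
    · exact ⟨b, hb, hw.symm.trans a1⟩
    · exact ⟨_, hκ b hb, hw.symm.trans (a2.trans h2)⟩
    · exact ⟨_, hκ b hb, hw.symm.trans (a2.trans h2)⟩
    · exact ⟨b, hb, hw.symm.trans a1⟩
  have side : ∀ (ZB : Finset B) (ZW : Finset W),
      (∀ e, G.xC b0 r s C e = 0 ↔ (G.bl e ∈ ZB ↔ G.wh e ∈ ZW)) →
      G.ConnOn ZB ZW (G.ins ZB ZW) → ∀ U0 : Finset F, U0 ⊆ G.RF b0 → (U0.Nonempty → b0 ∈ ZB) →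
      ZB.card + ZW.card + U0.card + (univ.filter fun b : B' b0 => b.1 ∈ ZB).card ≤
        3 * ZB.card + 1 := by
    intro ZB ZW hZ hc U0 hU0 hU0'
    have hin : ∀ w e1, (∀ b ∈ C, w ≠ (r b).1) → (G.L e1 = w ∨ G.R e1 = w) → G.bl e1 ∈ ZB →
        ∀ e, (G.L e = w ∨ G.R e = w) → e ∈ G.ins ZB ZW := by
      intro w e1 hw h1 h1' e he
      have hnc : ∀ e, G.L e = w ∨ G.R e = w → (G.bl e ∈ ZB ↔ G.wh e ∈ ZW) := by
        intro e he
        rw [← hZ]
        by_contra hx
        obtain ⟨b, hb, hb'⟩ := htouch e w he hx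
        exact hw b hb hb'
      rcases FC h ZB ZW w hnc with h2 | h2
      · simp only [ins, mem_filter, mem_univ, true_and]
        exact ⟨h2 e he, (hnc e he).1 (h2 e he)⟩
      · exact absurd h1' (h2 e1 h1)
    let S : Finset (B' b0) := univ.filter fun b => b.1 ∈ ZB ∧ b ∉ C
    let U : Finset F := U0 ∪ S.image fun b => (r b).1
    have hrinj : Function.Injective fun b : B' b0 => (r b).1 := fun a b hab =>
      r.injective (Subtype.ext hab)
    have hUc : U.card = U0.card + S.card := by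
      rw [card_union_of_disjoint, card_image_of_injective _ hrinj]
      rw [Finset.disjoint_left]
      intro w hw hw'
      obtain ⟨b, -, rfl⟩ := mem_image.1 hw'
      exact (r b).2 (hU0 hw)
    have hU : ∀ e, G.L e ∈ U ∨ G.R e ∈ U → e ∈ G.ins ZB ZW := by
      have key : ∀ w ∈ U, ∀ e, (G.L e = w ∨ G.R e = w) → e ∈ G.ins ZB ZW := by
        intro w hw
        rcases mem_union.1 hw with hw | hw
        · obtain ⟨e1, he1, he1'⟩ := mem_image.1 (hU0 hw)
          refine hin w e1 (fun b _ hb => (r b).2 (hb ▸ hU0 hw)) (Or.inl he1') ?_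
          rw [(mem_filter.1 he1).2]
          exact hU0' ⟨w, hw⟩
        · obtain ⟨b, hb, rfl⟩ := mem_image.1 hw
          have hb' := (mem_filter.1 hb).2
          refine hin _ (ε b) (fun b' hb'' he => hb'.2 ?_) (hεr b) (by rw [hε1]; exact hb'.1)
          rw [hrinj he]; exact hb''
      rintro e (he | he)
      · exact key _ he e (Or.inl rfl)
      · exact key _ he e (Or.inr rfl)
    have hne : U ≠ univ := by
      intro hu
      have : (r b1).1 ∈ U := hu ▸ mem_univ _
      rcases mem_union.1 this with hw | hw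
      · exact (r b1).2 (hU0 hw)
      · obtain ⟨b, hb, hb'⟩ := mem_image.1 hw
        exact (mem_filter.1 hb).2.2 (hrinj hb' ▸ hb1)
    have h1 := RL h.toGood1 ZB ZW (G.ins ZB ZW) U
      (fun e he => by simpa [ins] using he) hU hne hc
    have h2 := (cutcount h.toGood0 ZB ZW).1
    have h3 : (univ.filter fun b : B' b0 => b.1 ∈ ZB ∧ b ∈ C).card ≤ G.pc ZB ZW := by
      refine card_le_card_of_injOn ε ?_ ?_
      · intro b hb
        have hb' := (mem_filter.1 (mem_coe.1 hb)).2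
        have hx : G.xC b0 r s C (ε b) ≠ 0 := by
          rw [hε3 b hb'.2]; exact_mod_cast hJ b
        rw [Ne, hZ, hε1] at hx
        simp only [coe_filter, mem_univ, true_and, Set.mem_ofPred_eq, hε1]
        exact ⟨hb'.1, fun hw => hx ⟨fun _ => hw, fun _ => hb'.1⟩⟩
      · intro a _ b _ hab
        exact Subtype.ext (by rw [← hε1, ← hε1, hab])
    have h4 := Finset.card_filter_add_card_filter_not
      (s := univ.filter fun b : B' b0 => b.1 ∈ ZB) (fun b => b ∈ C)
    rw [filter_filter, filter_filter] at h4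
    have h5 : S.card = (univ.filter fun b : B' b0 => b.1 ∈ ZB ∧ b ∉ C).card := rfl
    omega
  have cnt : ∀ ZB : Finset B, (univ.filter fun b : B' b0 => b.1 ∈ ZB).card = (ZB.erase b0).card := by
    intro ZB
    rw [← card_image_of_injective _ Subtype.val_injective]
    congr 1
    ext b
    simp only [mem_image, mem_filter, mem_univ, true_and, mem_erase]
    constructor
    · rintro ⟨a, ha, rfl⟩; exact ⟨a.2, ha⟩
    · rintro ⟨h1, h2⟩; exact ⟨⟨b, h1⟩, h2, rfl⟩
  have s1 := side YB YW hcut hc1 ∅ (empty_subset _) (by simp)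
  have s2 := side YBᶜ YWᶜ (fun e => by rw [hcut e]; simp [not_iff_not]) hc2 (G.RF b0) subset_rfl
    (fun _ => mem_compl.2 hb0)
  rw [cnt, erase_eq_of_notMem hb0, card_empty] at s1
  rw [cnt, card_erase_of_mem (mem_compl.2 hb0), card_RF h.toGood0 (LR h)] at s2
  have c1 := card_add_card_compl YB
  have c2 := card_add_card_compl YW
  have c3 := cardW h.toGood0
  have c4 : 0 < (YBᶜ).card := card_pos.2 ⟨b0, mem_compl.2 hb0⟩
  omega

end Mp
end Crest.Agent.R39
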