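import Crest.Agent.R39.Defs

set_option autoImplicit false
set_option linter.unusedSectionVars false
open Finset

namespace Crest.Agent.R39
variable {ι κ : Type} [Fintype ι] [DecidableEq ι] [Fintype κ] [DecidableEq κ]

/-- sum over invariant sets = product over orbits -/
theorem B4a (σ : Equiv.Perm ι) (u v : ι → ℂ) :
    ∑ D ∈ (univ : Finset (Finset ι)).filter (fun D => ∀ b, b ∈ D ↔ σ b ∈ D),
      (∏ b ∈ D, v b) * ∏ b ∈ Dᶜ, u b =
      ∏ C ∈ univ.image (orb σ), (∏ b ∈ C, u b + ∏ b ∈ C, v b) := by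
  sorry

/-- all orbits odd → even permutation -/
theorem B4b (σ : Equiv.Perm ι) (h : ∀ b, Odd (orb σ b).card) : Equiv.Perm.sign σ = 1 := by
  sorry

end Crest.Agent.R39
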