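import Crest.Agent.R39.Basic2
import Crest.Agent.R39.ExactM
import Crest.Agent.R39.HallX
import Crest.Agent.R39.W20

set_option autoImplicit false
set_option linter.unusedSectionVars false
open Finset

namespace Crest.Agent.R39
namespace Mp
variable {E B W F : Type} [Fintype E] [DecidableEq E] [Fintype B] [DecidableEq B]
  [Fintype W] [DecidableEq W] [Fintype F] [DecidableEq F]

theorem cut_eq_H4 (G : Mp E B W F) (X : B ⊕ W → Prop) [DecidablePred X] :
    (univ.filter fun e => ¬ (X (.inl (G.bl e)) ↔ X (.inr (G.wh e)))).card =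
      G.pc (univ.filter fun b => X (.inl b)) (univ.filter fun t => X (.inr t)) +
      G.qc (univ.filter fun b => X (.inl b)) (univ.filter fun t => X (.inr t)) := by
  unfold pc qc
  rw [← card_union_of_disjoint (by
    rw [disjoint_filter]; intro e _ h1 h2; exact h2.1 h1.1)]
  congr 1
  ext e
  simp only [mem_filter, mem_univ, true_and, mem_union]
  tauto

/-- part (C): a pair of states exists when there is no bad 3-cut -/
theorem Cpair {G : Mp E B W F} (h : G.Good) (b0 : B) (hnb : G.NoBad b0) :
    ∃ r s : B' b0 ≃ G.F' b0, ∀ b : B' b0, G.J b.1 (r b).1 (s b).1 ≠ 0 := by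
  obtain ⟨r, s, hrs⟩ := HallX.pair_exists G.bl G.wh G.L G.R h.degB h.degW h.clB h.clW
    (W20.dconnP h.toGood1)
    (by
      intro X _ u v hu hv
      rw [cut_eq_H4]
      refine h.cut3 _ _ ?_ ?_
      · rcases u with u | u
        · exact Or.inl ⟨u, by simpa using hu⟩
        · exact Or.inr ⟨u, by simpa using hu⟩
      · rcases v with v | v
        · refine Or.inl fun hh => hv ?_
          have := mem_univ v
          rw [← hh] at this
          simpa using this
        · refine Or.inr fun hh => hv ?_
          have := mem_univ v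
          rw [← hh] at this
          simpa using this)
    h.euler (LR h) b0
    (by
      intro X _ h0 h3 hq w hw
      rw [cut_eq_H4] at h3
      have hq0 : G.qc (univ.filter fun b => X (.inl b)) (univ.filter fun t => X (.inr t)) = 0 := by
        unfold qc
        rw [card_eq_zero, filter_eq_empty_iff]
        intro e _ he
        simp only [mem_filter, mem_univ, true_and] at he
        exact he.1 (hq e he.2)
      exact hnb _ _ (by simpa using h0) ⟨w, by simpa using hw⟩ ⟨by omega, hq0⟩)
  have hm : ∀ b w, w ∈ G.RF b ↔ ∃ e, G.bl e = b ∧ G.L e = w := by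
    intro b w; simp [RF]
  let φ : {f // ¬ ∃ e, G.bl e = b0 ∧ G.L e = f} ≃ G.F' b0 :=
    Equiv.subtypeEquivRight fun f => by rw [hm]
  refine ⟨r.trans φ, s.trans φ, fun b => ?_⟩
  obtain ⟨h1, h2, h3⟩ := hrs b
  refine (J_ne_iff h.toGood0 (LR h) _ _ _).2 ⟨(hm _ _).2 h1, (hm _ _).2 h2, ?_⟩
  intro hh
  exact h3 (Subtype.ext hh)

end Mp
end Crest.Agent.R39
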