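import Crest.Agent.R39.Basic2
import Crest.Agent.R39.ExactM

set_option autoImplicit false
set_option linter.unusedSectionVars false
open Finset

namespace Crest.Agent.R39
namespace Mp
variable {E B W F : Type} [Fintype E] [DecidableEq E] [Fintype B] [DecidableEq B]
  [Fintype W] [DecidableEq W] [Fintype F] [DecidableEq F]

/-- generic: a 2-regular bipartite relation splits into two perfect matchings -/
theorem C3 {ι κ : Type} [Fintype ι] [DecidableEq ι] [Fintype κ] [DecidableEq κ]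
    (N : ι → Finset κ) (h1 : ∀ i, (N i).card = 2)
    (h2 : ∀ k, (univ.filter fun i => k ∈ N i).card = 2) :
    ∃ r s : ι ≃ κ, ∀ i, r i ∈ N i ∧ s i ∈ N i ∧ r i ≠ s i := by
  sorry

/-- Hall with capacities: omitted corner -/
theorem C2a {G : Mp E B W F} (h : G.Good) (b0 : B)
    (hC1 : ∀ U : Finset F, Disjoint U (G.RF b0) → 2 * U.card ≤ ∑ b, min 2 (G.RF b ∩ U).card) :
    ∃ o : B' b0 → F, (∀ b, o b ∈ G.RF b.1) ∧
      (∀ (b : B' b0) w, w ∈ G.RF b.1 → w ∈ G.RF b0 → w = o b) ∧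
      ∀ w, w ∉ G.RF b0 → (univ.filter fun b : B' b0 => w ∈ G.RF b.1 ∧ w ≠ o b).card = 2 := by
  sorry

theorem C2 {G : Mp E B W F} (h : G.Good) (b0 : B)
    (hC1 : ∀ U : Finset F, Disjoint U (G.RF b0) → 2 * U.card ≤ ∑ b, min 2 (G.RF b ∩ U).card) :
    ∃ r s : B' b0 ≃ G.F' b0, ∀ b : B' b0, G.J b.1 (r b).1 (s b).1 ≠ 0 := by
  sorry

end Mp
end Crest.Agent.R39
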