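import Mathlib
import Crest.Prelude.Def_PlanarMap
/-! Graph-level lemmas for row 39. -/
set_option autoImplicit false
namespace Crest.Agent.R39
open Crest.CombinatoricsR.PlanarMap

/-- a cubic 3-connected graph is 3-edge-connected -/
theorem cut3 {V : Type} [Fintype V] [DecidableEq V] (G : SimpleGraph V) [DecidableRel G.Adj]
    (hcubic : G.IsRegularOfDegree 3) (hconn : IsThreeConnected G) (S : Set V) (x y : V)
    (hx : x ∈ S) (hy : y ∉ S) : 3 ≤ {d : G.Dart | d.fst ∈ S ∧ d.snd ∉ S}.ncard := by
  classical
  by_contra hlt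
  push Not at hlt
  set C : Set G.Dart := {d : G.Dart | d.fst ∈ S ∧ d.snd ∉ S} with hC
  have hCf : C.Finite := Set.toFinite _
  set X : Finset V := hCf.toFinset.image (fun d => d.fst) with hX
  have hXc : X.card ≤ 2 := by
    have := Finset.card_image_le (s := hCf.toFinset) (f := fun d : G.Dart => d.fst)
    rw [← Set.ncard_eq_toFinset_card C hCf] at this
    have h' : X.card ≤ C.ncard := this
    omega
  have hXS : ∀ v ∈ X, v ∈ S := by
    intro v hv
    obtain ⟨d, hd, rfl⟩ := Finset.mem_image.1 hv
    exact ((Set.Finite.mem_toFinset _).1 hd).1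
  -- some vertex of `S` is outside `X`
  have hex : ∃ z ∈ S, z ∉ X := by
    by_contra hno
    push Not at hno
    -- every vertex of S has at least two neighbours outside S
    have key : ∀ v ∈ S, 4 - X.card ≤ (hCf.toFinset.filter (fun d => d.fst = v)).card := by
      intro v hv
      have h3 : (G.neighborFinset v).card = 3 := hcubic v
      have hsub : G.neighborFinset v ⊆ (X.erase v) ∪
          (hCf.toFinset.filter (fun d => d.fst = v)).image (fun d => d.snd) := by
        intro w hw
        have hadj : G.Adj v w := (SimpleGraph.mem_neighborFinset _ _ _).1 hw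
        by_cases hwS : w ∈ S
        · exact Finset.mem_union_left _ (Finset.mem_erase.2 ⟨hadj.ne.symm, hno w hwS⟩)
        · refine Finset.mem_union_right _ (Finset.mem_image.2 ⟨⟨(v, w), hadj⟩, ?_, rfl⟩)
          exact Finset.mem_filter.2 ⟨(Set.Finite.mem_toFinset _).2 ⟨hv, hwS⟩, rfl⟩
      have h4 := (Finset.card_le_card hsub).trans (Finset.card_union_le _ _)
      have h5 := Finset.card_image_le (s := hCf.toFinset.filter (fun d => d.fst = v))
        (f := fun d : G.Dart => d.snd)
      rw [Finset.card_erase_of_mem (hno v hv)] at h4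
      have : 0 < X.card := Finset.card_pos.2 ⟨v, hno v hv⟩
      omega
    have hsum : hCf.toFinset.card = ∑ v ∈ X, (hCf.toFinset.filter (fun d => d.fst = v)).card :=
      Finset.card_eq_sum_card_image _ _
    have hge : X.card * (4 - X.card) ≤ hCf.toFinset.card := by
      rw [hsum, ← smul_eq_mul, ← Finset.sum_const]
      exact Finset.sum_le_sum fun v hv => key v (hXS v hv)
    rw [← Set.ncard_eq_toFinset_card C hCf] at hge
    have hpos : 0 < X.card := Finset.card_pos.2 ⟨x, hno x hx⟩
    have : X.card = 1 ∨ X.card = 2 := by omega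
    rcases this with h | h <;> rw [h] at hge <;> omega
  obtain ⟨z, hzS, hzX⟩ := hex
  have hyX : y ∉ X := fun h => hy (hXS y h)
  have hcon := (hconn.2 X hXc).preconnected ⟨z, by simpa using hzX⟩ ⟨y, by simpa using hyX⟩
  obtain ⟨p⟩ := hcon
  have inv : ∀ (a b : ((↑X : Set V)ᶜ : Set V)) (q : (G.induce ((↑X : Set V)ᶜ)).Walk a b),
      (a : V) ∈ S → (b : V) ∈ S := by
    intro a b q
    induction q with
    | nil => exact id
    | @cons a c b hadj q ih =>
      intro ha
      apply ih
      by_contra hc
      have hadj' : G.Adj a c := hadj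
      apply a.2
      refine Finset.mem_coe.2 (Finset.mem_image.2 ⟨⟨(a, c), hadj'⟩, ?_, rfl⟩)
      exact (Set.Finite.mem_toFinset _).2 ⟨ha, hc⟩
  exact hy (inv _ _ p hzS)

end Crest.Agent.R39
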