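import Mathlib

set_option autoImplicit false

namespace Crest.Agent.R39

open Finset Polynomial

/-- iterated finite differences of a polynomial of degree at most `#K`. -/
theorem findiff_poly {ι : Type*} [DecidableEq ι] (K : Finset ι) (A : ι → ℤ) :
    ∀ (P : ℤ[X]) (h0 : ℤ), P.natDegree ≤ K.card →
      ∑ S ∈ K.powerset, (-1 : ℤ) ^ S.card * P.eval (h0 + ∑ c ∈ S, A c) =
        (-1) ^ K.card * (K.card.factorial : ℤ) * P.coeff K.card * ∏ c ∈ K, A c := by
  induction K using Finset.induction_on with
  | empty =>
    intro P h0 hP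
    have hP0 : P.natDegree = 0 := by simpa using hP
    rw [Polynomial.eq_C_of_natDegree_eq_zero hP0]
    simp
  | insert a K ha ih =>
    intro P h0 hP
    rw [Finset.card_insert_of_notMem ha] at hP ⊢
    rw [Finset.sum_powerset_insert ha, ← Finset.sum_add_distrib]
    set Q : ℤ[X] := P - taylor (A a) P with hQ
    have hcoef : ∀ n, K.card < n → Q.coeff n = 0 := by
      intro n hn
      rcases eq_or_lt_of_le (Nat.succ_le_of_lt hn) with h | h
      · rw [hQ, coeff_sub, taylor_coeff]
        have hd : (hasseDeriv n P).natDegree = 0 := by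
          have := natDegree_hasseDeriv_le P n
          omega
        rw [Polynomial.eq_C_of_natDegree_eq_zero hd, eval_C, hasseDeriv_coeff]
        simp
      · rw [hQ, coeff_sub, coeff_eq_zero_of_natDegree_lt (by omega),
          coeff_eq_zero_of_natDegree_lt (by rw [natDegree_taylor]; omega)]
        simp
    have hQd : Q.natDegree ≤ K.card := by
      rw [natDegree_le_iff_coeff_eq_zero]
      exact hcoef
    have hQc : Q.coeff K.card = -((K.card + 1 : ℤ) * P.coeff (K.card + 1) * A a) := by
      rw [hQ, coeff_sub, taylor_coeff]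
      have hd : (hasseDeriv K.card P).natDegree ≤ 1 := by
        have := natDegree_hasseDeriv_le P K.card
        omega
      rw [eq_X_add_C_of_natDegree_le_one hd]
      simp only [eval_add, eval_mul, eval_C, eval_X, hasseDeriv_coeff]
      simp [add_comm 1 K.card]
    have := ih Q h0 hQd
    rw [hQc] at this
    rw [Finset.prod_insert ha, Nat.factorial_succ]
    have e : ∀ S ∈ K.powerset, (-1 : ℤ) ^ S.card * P.eval (h0 + ∑ c ∈ S, A c) +
        (-1 : ℤ) ^ (insert a S).card * P.eval (h0 + ∑ c ∈ insert a S, A c) =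
        (-1 : ℤ) ^ S.card * Q.eval (h0 + ∑ c ∈ S, A c) := by
      intro S hS
      have haS : a ∉ S := fun h => ha (Finset.mem_powerset.1 hS h)
      rw [Finset.card_insert_of_notMem haS, Finset.sum_insert haS, hQ, eval_sub, taylor_eval]
      have : h0 + (A a + ∑ c ∈ S, A c) = h0 + ∑ c ∈ S, A c + A a := by ring
      rw [this]; ring
    rw [Finset.sum_congr rfl e, this]
    push_cast
    ring

theorem findiff {ι : Type*} [DecidableEq ι] (K : Finset ι) (A : ι → ℤ) (h0 : ℤ) (m : ℕ)
    (hm : m ≤ K.card) :
    ∑ S ∈ K.powerset, (-1 : ℤ) ^ S.card * (h0 + ∑ c ∈ S, A c) ^ m =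
      if m = K.card then (-1) ^ m * (m.factorial : ℤ) * ∏ c ∈ K, A c else 0 := by
  have := findiff_poly K A (X ^ m) h0 (by simpa using hm)
  simp only [eval_pow, eval_X, coeff_X_pow] at this
  rw [this]
  split_ifs with h1 h2 h2
  · subst h2; ring
  · exact absurd h1.symm h2
  · exact absurd h2.symm h1
  · ring

end Crest.Agent.R39
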