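import Mathlib

/-! Row 39: the weight function on corners (flow from the root to the white vertices). -/

namespace Crest.Agent.R39

open Finset

namespace H4

theorem tri3 {F : Type*} [DecidableEq F] (l1 l2 l3 r1 r2 r3 : F) (h1 : l1 ≠ r1) (h2 : l2 ≠ r2)
    (h3 : l3 ≠ r3)
    (h : ∀ f, (if l1 = f then 1 else 0) + (if l2 = f then 1 else 0) + (if l3 = f then (1 : ℕ) else 0)
      = (if r1 = f then 1 else 0) + (if r2 = f then 1 else 0) + (if r3 = f then 1 else 0)) :
    l1 ≠ l2 ∧ l1 ≠ l3 ∧ l2 ≠ l3 ∧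
      ((l1 = r2 ∧ l2 = r3 ∧ l3 = r1) ∨ (l1 = r3 ∧ l2 = r1 ∧ l3 = r2)) := by
  have a1 := h l1
  have a2 := h l2
  have a3 := h l3
  grind

/-- the three edges at a vertex form a directed 3-cycle of distinct faces -/
theorem tri {E B F : Type*} [Fintype E] [DecidableEq E] [DecidableEq B] [DecidableEq F]
    (bl : E → B) (L R : E → F) (hbl : ∀ b, (univ.filter fun e => bl e = b).card = 3)
    (closed : ∀ b f, (univ.filter fun e => bl e = b ∧ L e = f).card =
      (univ.filter fun e => bl e = b ∧ R e = f).card)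
    (hLR : ∀ e, L e ≠ R e) (x : E) :
    ∃ y z, x ≠ y ∧ x ≠ z ∧ y ≠ z ∧ (univ.filter fun e => bl e = bl x) = {x, y, z} ∧
      L x ≠ L y ∧ L x ≠ L z ∧ L y ≠ L z ∧ L x = R y ∧ L y = R z ∧ L z = R x := by
  have key : ∀ y z, x ≠ y → x ≠ z → y ≠ z → (univ.filter fun e => bl e = bl x) = {x, y, z} →
      ∃ y z, x ≠ y ∧ x ≠ z ∧ y ≠ z ∧ (univ.filter fun e => bl e = bl x) = {x, y, z} ∧
      L x ≠ L y ∧ L x ≠ L z ∧ L y ≠ L z ∧ L x = R y ∧ L y = R z ∧ L z = R x := by
    intro y z hxy hxz hyz hS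
    have hc : ∀ (T : E → F) (f : F), (univ.filter fun e => bl e = bl x ∧ T e = f).card =
        (if T x = f then 1 else 0) + (if T y = f then 1 else 0) + (if T z = f then 1 else 0) := by
      intro T f
      rw [← filter_filter, hS, card_filter, sum_insert (by simp [hxy, hxz]),
        sum_insert (by simp [hyz]), sum_singleton, add_assoc]
    obtain ⟨n1, n2, n3, h | h⟩ := tri3 (L x) (L y) (L z) (R x) (R y) (R z) (hLR x) (hLR y) (hLR z)
      (fun f => by rw [← hc L f, ← hc R f]; exact closed _ f)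
    · exact ⟨y, z, hxy, hxz, hyz, hS, n1, n2, n3, h.1, h.2.1, h.2.2⟩
    · refine ⟨z, y, hxz, hxy, hyz.symm, ?_, n2, n1, n3.symm, h.1, h.2.2, h.2.1⟩
      rw [hS, pair_comm]
  obtain ⟨p, q, t, hpq, hpt, hqt, hS⟩ := card_eq_three.1 (hbl (bl x))
  have hx : x ∈ ({p, q, t} : Finset E) := by rw [← hS]; simp
  simp only [mem_insert, mem_singleton] at hx
  rcases hx with rfl | rfl | rfl
  · exact key q t hpq hpt hqt hS
  · refine key p t hpq.symm hqt hpt ?_
    rw [hS, insert_comm]
  · refine key p q hpt.symm hqt.symm hpq ?_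
    rw [hS]; ext e; simp only [mem_insert, mem_singleton]; tauto

theorem flow {E B W : Type*} [Fintype E] [Fintype W] [DecidableEq E] [DecidableEq B]
    [DecidableEq W] (bl : E → B) (wh : E → W)
    (conn : ∀ S : B ⊕ W → Prop, (∀ e, S (Sum.inl (bl e)) ↔ S (Sum.inr (wh e))) →
      ∀ u v, S u → S v) (b0 : B) :
    ∃ al : E → ℝ, (∀ b, b ≠ b0 → ∑ e with bl e = b, al e = 0) ∧
      (∀ w, ∑ e with wh e = w, al e = 1) := by
  let S : B ⊕ W → Prop := fun v => ∃ al : E → ℝ,
    (∀ b, b ≠ b0 → ∑ e with bl e = b, al e = -(if Sum.inl b = v then 1 else 0)) ∧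
      (∀ w, ∑ e with wh e = w, al e = if Sum.inr w = v then 1 else 0)
  have hS : ∀ v, S v := by
    intro v
    refine conn S ?_ (Sum.inl b0) v ⟨fun _ => 0, ?_, ?_⟩
    · intro e0
      constructor
      · rintro ⟨al, h1, h2⟩
        refine ⟨fun e => al e + if e = e0 then 1 else 0, ?_, ?_⟩
        · intro b hb
          rw [sum_add_distrib, h1 b hb, sum_ite_eq']
          by_cases h : bl e0 = b
          · simp [h]
          · simp [h, Ne.symm h]
        · intro w
          rw [sum_add_distrib, h2 w, sum_ite_eq']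
          by_cases h : wh e0 = w
          · simp [h]
          · simp [h, Ne.symm h]
      · rintro ⟨al, h1, h2⟩
        refine ⟨fun e => al e - if e = e0 then 1 else 0, ?_, ?_⟩
        · intro b hb
          rw [sum_sub_distrib, h1 b hb, sum_ite_eq']
          by_cases h : bl e0 = b
          · simp [h]
          · simp [h, Ne.symm h]
        · intro w
          rw [sum_sub_distrib, h2 w, sum_ite_eq']
          by_cases h : wh e0 = w
          · simp [h]
          · simp [h, Ne.symm h]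
    · intro b hb; simp [hb]
    · intro w; simp
  choose al h1 h2 using fun w : W => hS (Sum.inr w)
  refine ⟨fun e => ∑ w, al w e, ?_, ?_⟩
  · intro b hb
    rw [sum_comm]
    exact sum_eq_zero fun w _ => by rw [h1 w b hb]; simp
  · intro w
    rw [sum_comm]
    simp only [h2]
    simp

end H4

theorem weight {E B W F : Type*} [Fintype E] [Fintype W] [DecidableEq E] [DecidableEq B]
    [DecidableEq W] [DecidableEq F] (bl : E → B) (wh : E → W) (L R : E → F)
    (hbl : ∀ b, (univ.filter fun e => bl e = b).card = 3)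
    (closed_bl : ∀ b f, (univ.filter fun e => bl e = b ∧ L e = f).card =
      (univ.filter fun e => bl e = b ∧ R e = f).card)
    (hLR : ∀ e, L e ≠ R e)
    (conn : ∀ S : B ⊕ W → Prop, (∀ e, S (Sum.inl (bl e)) ↔ S (Sum.inr (wh e))) →
      ∀ u v, S u → S v) (b0 : B) :
    ∃ (al : E → ℝ) (a : B → F → ℝ), (∀ b, b ≠ b0 → ∑ e with bl e = b, al e = 0) ∧
      (∀ w, ∑ e with wh e = w, al e = 1) ∧
      (∀ e, bl e ≠ b0 → a (bl e) (L e) - a (bl e) (R e) = al e) := by
  obtain ⟨al, h1, h2⟩ := H4.flow bl wh conn b0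
  refine ⟨al, fun b f => (∑ e with bl e = b,
    ((if L e = f then al e else 0) - (if R e = f then al e else 0))) / 3, h1, h2, ?_⟩
  intro x hx
  obtain ⟨y, z, hxy, hxz, hyz, hS, n1, n2, n3, e1, e2, e3⟩ := H4.tri bl L R hbl closed_bl hLR x
  have h0 := h1 _ hx
  simp only [hS] at h0 ⊢
  rw [sum_insert (by simp [hxy, hxz]), sum_insert (by simp [hyz]), sum_singleton] at h0
  rw [sum_insert (by simp [hxy, hxz]), sum_insert (by simp [hyz]), sum_singleton,
    sum_insert (by simp [hxy, hxz]), sum_insert (by simp [hyz]), sum_singleton]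
  rw [← e1, ← e2, ← e3]
  simp only [n1, n2, n3, n1.symm, n2.symm, n3.symm, if_true, if_false]
  linarith

end Crest.Agent.R39
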