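import Mathlib

set_option autoImplicit false

namespace Crest.Agent.R39

open SimpleGraph

theorem ham_two {V : Type*} [Fintype V] [DecidableEq V] (G H : SimpleGraph V)
    (hle : H ≤ G) (h2 : ∀ v, (H.neighborSet v).ncard = 2) (hc : H.Connected) :
    G.IsHamiltonian := by
  refine SimpleGraph.IsHamiltonian.mono hle ?_
  intro _
  obtain ⟨v⟩ := hc.nonempty
  have hcyc : H.IsCycles := fun w _ => h2 w
  have hn : (H.neighborSet v).Nonempty := Set.nonempty_of_ncard_ne_zero (by rw [h2 v]; omega)
  obtain ⟨p, hp, hv⟩ := hcyc.exists_cycle_toSubgraph_verts_eq_connectedComponentSupp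
    (c := H.connectedComponentMk v) (v := v) (by simp) hn
  refine ⟨v, p, hp, ?_⟩
  refine hp.isPath_tail.isHamiltonian_of_mem ?_
  intro w
  have hw : w ∈ p.support := by
    rw [← Walk.mem_verts_toSubgraph, hv, ConnectedComponent.mem_supp_iff,
      ConnectedComponent.eq]
    exact hc.preconnected w v
  by_cases hwv : w = v
  · subst hwv
    exact Walk.end_mem_support _
  · rw [Walk.support_tail_of_not_nil _ hp.not_nil]
    rw [← Walk.cons_tail_support, List.mem_cons] at hw
    exact hw.resolve_left hwv

end Crest.Agent.R39
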