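import Crest.Agent.R39.W20

set_option autoImplicit false
set_option linter.unusedSectionVars false
open Finset

namespace Crest.Agent.R39
namespace W20
open Mp
variable {E B W F : Type} [Fintype E] [DecidableEq E] [Fintype B] [DecidableEq B]
  [Fintype W] [DecidableEq W] [Fintype F] [DecidableEq F]

/-- a nonzero closed cochain has at least three edges in its support -/
theorem supp3 {G : Mp E B W F} (h : G.Good) (x : E → ℚ) (hx : G.Closed x) (e : E) (he : x e ≠ 0) :
    3 ≤ (univ.filter fun e => x e ≠ 0).card := by
  obtain ⟨gB, gW, hg⟩ := exactQ h x hx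
  have h3 := h.cut3 (univ.filter fun b => gB b = gW (G.wh e))
    (univ.filter fun t => gW t = gW (G.wh e)) (Or.inr ⟨G.wh e, by simp⟩)
    (Or.inl fun hh => he (by
      have : G.bl e ∈ univ.filter fun b => gB b = gW (G.wh e) := by rw [hh]; exact mem_univ _
      rw [hg e, (mem_filter.1 this).2, sub_self]))
  refine h3.trans ?_
  rw [pc, qc, ← card_union_of_disjoint]
  · refine card_le_card fun a ha => ?_
    simp only [mem_union, mem_filter, mem_univ, true_and] at ha ⊢
    rw [hg a]
    rcases ha with ⟨h1, h2⟩ | ⟨h1, h2⟩
    · intro h0; exact h2 (by rw [← h1]; linarith)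
    · intro h0; exact h1 (by rw [← h2]; linarith)
  · rw [disjoint_filter]
    intro a _ h1 h2
    exact h2.1 h1.1

theorem LneR {G : Mp E B W F} (h : G.Good) (e : E) : G.L e ≠ G.R e := by
  intro hLR
  have h3 := supp3 h (fun a => if a = e then 1 else 0) (by
    intro w
    simp only [sum_ite_eq', mem_filter, mem_univ, true_and, hLR]) e (by simp)
  have : (univ.filter fun a => (if a = e then (1 : ℚ) else 0) ≠ 0) ⊆ {e} := by
    intro a ha
    by_contra hn
    simp only [mem_singleton] at hn
    simp [hn] at ha
  have := card_le_card this
  simp only [card_singleton] at this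
  omega

/-- no two edges separate the same two faces with opposite orientation -/
theorem no2 {G : Mp E B W F} (h : G.Good) (e e' : E) (h1 : G.L e = G.R e') (h2 : G.R e = G.L e') :
    False := by
  have h3 := supp3 h (fun a => (if a = e then 1 else 0) + (if a = e' then 1 else 0)) (by
    intro w
    simp only [sum_add_distrib, sum_ite_eq', mem_filter, mem_univ, true_and, h1, h2]
    ring) e (by
      simp only [if_true]
      split_ifs <;> norm_num)
  have : (univ.filter fun a =>
      (if a = e then (1 : ℚ) else 0) + (if a = e' then (1 : ℚ) else 0) ≠ 0) ⊆ {e, e'} := by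
    intro a ha
    by_contra hn
    simp only [mem_insert, mem_singleton, not_or] at hn
    simp [hn.1, hn.2] at ha
  have h4 := (card_le_card this).trans (card_le_two)
  omega

/-- no two distinct edges separate the same two faces with the same orientation -/
theorem no2' {G : Mp E B W F} (h : G.Good) (e e' : E) (h1 : G.L e = G.L e') (h2 : G.R e = G.R e') :
    e = e' := by
  by_contra hne
  have h3 := supp3 h (fun a => (if a = e then 1 else 0) - (if a = e' then 1 else 0)) (by
    intro w
    simp only [sum_sub_distrib, sum_ite_eq', mem_filter, mem_univ, true_and, h1, h2]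
    ring) e (by simp [hne])
  have : (univ.filter fun a =>
      (if a = e then (1 : ℚ) else 0) - (if a = e' then (1 : ℚ) else 0) ≠ 0) ⊆ {e, e'} := by
    intro a ha
    by_contra hn
    simp only [mem_insert, mem_singleton, not_or] at hn
    simp [hn.1, hn.2] at ha
  have h4 := (card_le_card this).trans (card_le_two)
  omega

end W20
end Crest.Agent.R39
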